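import Crest.Agent.N49.Top.Iter

/-!
# Row 49 (helper27): the calculus of triangular costs (composition, loops, final form of the step)
-/

set_option autoImplicit false
open Finset

namespace Crest.Agent.N49.Top

universe u v w

/-- total cost -/
def tot (n : ℕ) (c : ℕ → ℕ) : ℕ := ∑ i ∈ range n, c i

/-- the base of the polynomial that may be added to the cost `i` -/
def bs (n m : ℕ) (c c' : ℕ → ℕ) (i : ℕ) : ℕ := m + Nat.log 2 (tot n c) + ∑ j ∈ range i, c' j

/-- a triangular change of costs -/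
def Tri (n K m : ℕ) (c c' : ℕ → ℕ) : Prop := ∀ i < n, c i ≤ c' i ∧ c' i ≤ c i + bs n m c c' i ^ K

variable {n K K' m m' : ℕ} {c c' c'' : ℕ → ℕ}

theorem le_tot {i : ℕ} (h : i < n) : c i ≤ tot n c :=
  single_le_sum (f := c) (fun _ _ => Nat.zero_le _) (mem_range.2 h)

theorem tot_mono (h : ∀ i < n, c i ≤ c' i) : tot n c ≤ tot n c' :=
  sum_le_sum fun i k => h i (mem_range.1 k)

theorem le_bs (i : ℕ) : m ≤ bs n m c c' i := by unfold bs; omega

theorem bs_mono {d d' : ℕ → ℕ} {i i' : ℕ} (hm : m ≤ m') (h : tot n c ≤ tot n d) (hi : i ≤ i')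
    (h' : ∀ j < i, c' j ≤ d' j) : bs n m c c' i ≤ bs n m' d d' i' := by
  have a := Nat.log_mono_right (b := 2) h
  have b : ∑ j ∈ range i, c' j ≤ ∑ j ∈ range i', d' j :=
    (sum_le_sum fun j k => h' j (mem_range.1 k)).trans
      (sum_le_sum_of_subset (range_mono hi))
  unfold bs; omega

theorem Tri.refl : Tri n K m c c := fun _ _ => ⟨le_rfl, Nat.le_add_right _ _⟩

theorem Tri.mono (h : Tri n K m c c') (h1 : 1 ≤ m') (hK : K ≤ K') (hm : m ≤ m') :
    Tri n K' m' c c' := fun i k => ⟨(h i k).1, (h i k).2.trans (Nat.add_le_add_left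
  ((Nat.pow_le_pow_left (bs_mono hm le_rfl le_rfl fun _ _ => le_rfl) _).trans
    (Nat.pow_le_pow_right (h1.trans (le_bs i)) hK)) _)⟩

theorem tri_tot (n K : ℕ) : ∃ E, ∀ m c c', 2 ≤ m → Tri n K m c c' →
    m + tot n c' ≤ (m + tot n c) ^ E := by
  obtain ⟨E, hE⟩ := S_le K 1 n
  refine ⟨E, fun m c c' hm h => le_trans ?_ (hE _ (by omega))⟩
  have : ∀ i ≤ n, m + tot n c + ∑ j ∈ range i, c' j ≤ S K 1 (m + tot n c) i := fun i => by
    induction i with
    | zero => simp [S]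
    | succ i ih =>
      intro k
      have a := ih (by omega)
      have b : bs n m c c' i ≤ S K 1 (m + tot n c) i := by
        have := Nat.log_le_self 2 (tot n c); unfold bs; omega
      have d := Nat.pow_le_pow_left b K
      have e := (h i k).2
      have f := le_tot (c := c) (show i < n from k)
      have g := Nat.le_mul_of_pos_right (m + tot n c) (Nat.pow_pos (n := K)
        (show 0 < S K 1 (m + tot n c) i by omega))
      rw [S, sum_range_succ, one_mul, add_mul]; omega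
  have := this n le_rfl
  unfold tot at *; omega

theorem log_le (E : ℕ) : ∃ F, 1 ≤ F ∧ ∀ m t u, 2 ≤ m → u ≤ (m + Nat.log 2 u + t) ^ E →
    Nat.log 2 u ≤ (m + Nat.log 2 t) ^ F := by
  obtain ⟨l, hl⟩ := exists_l (2 * E)
  refine ⟨l + 1 + 4 * E + 1, by omega, fun m t u hm h => ?_⟩
  set x := m + Nat.log 2 t with hx
  set y := Nat.log 2 u with hy
  have x2 : l + 1 + 4 * E ≤ x ^ (l + 1 + 4 * E) :=
    Nat.lt_two_pow_self.le.trans (Nat.pow_le_pow_left (by omega) _)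
  refine le_trans ?_ ((Nat.mul_le_mul_right x x2).trans_eq (pow_succ _ _).symm)
  by_cases q : y < l + 1
  · nlinarith
  have u0 : u ≠ 0 := fun e => by simp [hy, e] at q
  have a : m + t ≤ 2 ^ (x + 1) := by
    have a1 : m ≤ 2 ^ x := Nat.lt_two_pow_self.le.trans (Nat.pow_le_pow_right two_pos (by omega))
    have a2 : t ≤ 2 ^ x := (Nat.lt_pow_succ_log_self one_lt_two t).le.trans
      (Nat.pow_le_pow_right two_pos (by omega))
    rw [pow_succ]; omega
  have b : m + y + t ≤ 2 ^ (x + 1) * (2 * y) := by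
    have : 1 ≤ 2 ^ (x + 1) := Nat.one_le_two_pow
    nlinarith
  have d := (Nat.pow_log_le_self 2 u0).trans (h.trans (Nat.pow_le_pow_left b E))
  have e := Nat.pow_le_pow_left d 2
  rw [← hy, ← pow_mul, ← pow_mul, mul_pow, ← pow_mul, mul_comm E 2] at e
  have f := e.trans (Nat.mul_le_mul_left _ (hl y (by omega)))
  rw [← pow_add, Nat.pow_le_pow_iff_right one_lt_two] at f
  nlinarith

/-- the logarithm of the new costs is free -/
theorem tri_abs (n K : ℕ) : ∃ K', ∀ m c c', 2 ≤ m → Tri n K (m + Nat.log 2 (tot n c')) c c' →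
    Tri n K' m c c' := by
  obtain ⟨E, hE⟩ := tri_tot n K
  obtain ⟨F, F1, hF⟩ := log_le E
  refine ⟨(F + 1) * K, fun m c c' hm h i k => ⟨(h i k).1, (h i k).2.trans ?_⟩⟩
  have a := hF m (tot n c) (tot n c') hm (le_trans (by omega) (hE _ c c' (by omega) h))
  have b := a.trans (Nat.pow_le_pow_left (show _ ≤ bs n m c c' i by unfold bs; omega) F)
  have d : 2 ≤ bs n m c c' i := hm.trans (le_bs i)
  have e := Nat.le_self_pow (show F ≠ 0 by omega) (bs n m c c' i)
  have f := Nat.mul_le_mul_left (bs n m c c' i ^ F) d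
  rw [pow_mul]
  refine Nat.add_le_add_left (Nat.pow_le_pow_left ?_ _) _
  rw [pow_succ]
  have : bs n (m + Nat.log 2 (tot n c')) c c' i = bs n m c c' i + Nat.log 2 (tot n c') := by
    unfold bs; omega
  omega

/-- the state after `t` triangular moves -/
def Inv (n K m t : ℕ) (c c' : ℕ → ℕ) : Prop :=
  ∀ i < n, c i ≤ c' i ∧ c' i ≤ c i + t * bs n m c' c' i ^ K

theorem Inv.zero : Inv n K m 0 c c := fun _ _ => by simp

theorem Inv.succ {t : ℕ} (h : Inv n K m t c c') (k : Tri n K m c' c'') : Inv n K m (t + 1) c c'' :=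
  fun i hi => by
    have e := tot_mono fun i a => (k i a).1
    have a := Nat.mul_le_mul_left t (Nat.pow_le_pow_left
      (bs_mono (m := m) (c' := c') (d' := c'') le_rfl e le_rfl fun j a => (k j (a.trans hi)).1) K)
    have b := Nat.pow_le_pow_left
      (bs_mono (m := m) (c' := c'') (d' := c'') (i := i) le_rfl e le_rfl fun j a => le_rfl) K
    have := h i hi
    have := k i hi
    rw [add_mul]; omega

theorem Inv.tri {t K₀ : ℕ} (h : Inv n K m t c c')
    (ht : ∀ i < n, c' i = c i ∨ t ≤ bs n m c c' i ^ K₀) :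
    Tri n (K₀ + K) (m + Nat.log 2 (tot n c')) c c' := fun i hi => by
  refine ⟨(h i hi).1, (ht i hi).elim (fun e => by omega) fun e => (h i hi).2.trans ?_⟩
  rw [pow_add]
  refine Nat.add_le_add_left (Nat.mul_le_mul (e.trans (Nat.pow_le_pow_left ?_ _))
    (Nat.pow_le_pow_left ?_ _)) _ <;> unfold bs <;> omega

theorem tri_trans (n K : ℕ) : ∃ K', ∀ m c c' c'', 2 ≤ m → Tri n K m c c' → Tri n K m c' c'' →
    Tri n K' m c c'' := by
  obtain ⟨K', h⟩ := tri_abs n (1 + K)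
  exact ⟨K', fun m c c' c'' hm a b => h m c c'' hm (((Inv.zero.succ a).succ b).tri fun i _ =>
    Or.inr (by rw [pow_one]; exact hm.trans (le_bs i)))⟩

/-- feasibility: `log N` is large -/
def Ok (n K m : ℕ) (L : ℝ) (c : ℕ → ℕ) : Prop := ((m + tot n c : ℕ) : ℝ) ^ K ≤ L

theorem Ok.mono {L : ℝ} (h : Ok n K' m L c) (hm : 1 ≤ m) (hK : K ≤ K') : Ok n K m L c :=
  le_trans (pow_le_pow_right₀ (by exact_mod_cast (by omega)) hK) h

theorem ok_tri (n K : ℕ) : ∃ K', ∀ m L c c', 2 ≤ m → Tri n K m c c' → Ok n K' m L c →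
    Ok n K m L c' := by
  obtain ⟨E, hE⟩ := tri_tot n K
  refine ⟨E * K, fun m L c c' hm a b => le_trans ?_ b⟩
  rw [pow_mul]
  exact_mod_cast Nat.pow_le_pow_left (hE m c c' hm a) K

/-- a move from `V` to `W` with triangular costs -/
def Arr (n K m : ℕ) (L : ℝ) {V W : Type*} (cV : V → ℕ → ℕ) (cW : W → ℕ → ℕ) (P : V → Prop)
    (R : V → W → Prop) : Prop :=
  ∀ v, P v → Ok n K m L (cV v) → ∃ w, R v w ∧ Tri n K m (cV v) (cW w)

theorem Arr.mono {L : ℝ} {V W : Type*} {cV : V → ℕ → ℕ} {cW : W → ℕ → ℕ} {P P' : V → Prop}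
    {R R' : V → W → Prop} (h : Arr n K m L cV cW P R) (hm : 1 ≤ m) (hK : K ≤ K')
    (hP : ∀ v, P' v → P v) (hR : ∀ v w, P' v → R v w → R' v w) : Arr n K' m L cV cW P' R' :=
  fun v a b => let ⟨w, d, e⟩ := h v (hP v a) (b.mono hm hK)
    ⟨w, hR v w a d, e.mono hm hK le_rfl⟩

/-- **composition** -/
theorem arr_comp (n K : ℕ) : ∃ K', ∀ (m : ℕ) (L : ℝ) (V : Type u) (W : Type v) (X : Type w)
    (cV : V → ℕ → ℕ) (cW : W → ℕ → ℕ) (cX : X → ℕ → ℕ) (P : V → Prop) (Q : W → Prop) (R : V → W → Prop)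
    (R' : W → X → Prop), 2 ≤ m → (∀ v w, P v → R v w → Q w) → Arr n K m L cV cW P R →
      Arr n K m L cW cX Q R' → Arr n K' m L cV cX P fun v x => ∃ w, R v w ∧ R' w x := by
  obtain ⟨A, hA⟩ := tri_trans n K
  obtain ⟨B, hB⟩ := ok_tri n K
  refine ⟨K + A + B, fun m L V W X cV cW cX P Q R R' hm hQ h h' v p ok => ?_⟩
  obtain ⟨w, a, b⟩ := h v p (ok.mono (by omega) (by omega))
  obtain ⟨x, d, e⟩ := h' w (hQ v w p a) (hB m L _ _ hm b (ok.mono (by omega) (by omega)))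
  exact ⟨x, ⟨w, a, d⟩, (hA m _ _ _ hm b e).mono (by omega) (by omega) le_rfl⟩

/-- **a chain of fixed length**: states `V d`, moves from `V (d + 1)` to `V d` -/
theorem arr_chain (n K s : ℕ) : ∃ K', ∀ (m : ℕ) (L : ℝ) (V : ℕ → Type u) (c : ∀ d, V d → ℕ → ℕ)
    (P : ∀ d, V d → Prop), 2 ≤ m →
      (∀ d < s, Arr n K m L (c (d + 1)) (c d) (P (d + 1)) fun _ w => P d w) →
        Arr n K' m L (c s) (c 0) (P s) fun _ w => P 0 w := by
  induction s with
  | zero => exact ⟨0, fun m L V c P _ _ v p _ => ⟨v, p, Tri.refl⟩⟩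
  | succ s ih =>
    obtain ⟨A, hA⟩ := ih
    obtain ⟨B, hB⟩ := arr_comp.{u, u, u} n (K + A)
    refine ⟨B, fun m L V c P hm h => (hB m L _ _ _ _ _ _ _ (P s) _ _ hm (fun _ _ _ a => a)
      ((h s (by omega)).mono (by omega) (by omega) (fun _ a => a) fun _ _ _ a => a)
      ((hA m L V c P hm fun d a => h d (by omega)).mono (by omega) (by omega) (fun _ a => a)
        fun _ _ _ a => a)).mono (by omega) le_rfl (fun _ a => a) fun _ _ _ ⟨_, _, a⟩ => a⟩

/-- nothing happens below the index `i` -/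
def Kp {V : Type u} (c φ : V → ℕ → ℕ) (i : ℕ) (v w : V) : Prop :=
  ∀ j < i, c w j = c v j ∧ φ w j ≤ φ v j

/-- an event of index `< i` -/
def Ev {V : Type u} (c φ : V → ℕ → ℕ) (i : ℕ) (v w : V) : Prop :=
  ∃ j < i, φ w j < φ v j ∧ Kp c φ j v w

theorem loop_aux (n K r : ℕ) : ∃ K', ∀ (m : ℕ) (L : ℝ) (V : Type u) (c φ : V → ℕ → ℕ)
    (I D : V → Prop) (i : ℕ), i + r = n → 2 ≤ m →
      (∀ v, I v → ∀ i < n, φ v i ≤ bs n m (c v) (c v) i ^ K) →
      Arr n K m L c c (fun v => I v ∧ ¬ D v) (fun v w => I w ∧ Ev c φ n v w) →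
        Arr n K' m L c c I fun v w => I w ∧ (D w ∧ Kp c φ i v w ∨ Ev c φ i v w) := by
  induction r with
  | zero =>
    refine ⟨K, fun m L V c φ I D i e hm _ h v p ok => ?_⟩
    obtain rfl : i = n := e
    by_cases d : D v
    · exact ⟨v, ⟨p, Or.inl ⟨d, fun _ _ => ⟨rfl, le_rfl⟩⟩⟩, Tri.refl⟩
    · obtain ⟨w, ⟨a, b⟩, e⟩ := h v ⟨p, d⟩ ok
      exact ⟨w, ⟨a, Or.inr b⟩, e⟩
  | succ r ih =>
    obtain ⟨A, hA⟩ := ih
    obtain ⟨B, hB⟩ := tri_abs n (K + A)
    obtain ⟨C, hC⟩ := tri_trans n (A + B)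
    obtain ⟨E, hE⟩ := ok_tri n (A + B)
    refine ⟨C + E, fun m L V c φ I D i e hm hφ h v p ok => ?_⟩
    have H := hA m L V c φ I D (i + 1) (by omega) hm hφ h
    have key : ∀ (k t : ℕ) (u : V), φ u i ≤ k → I u → Inv n A m t (c v) (c u) → Kp c φ i v u →
        t + φ u i ≤ φ v i → ∃ w, (I w ∧ (D w ∧ Kp c φ i v w ∨ Ev c φ i v w)) ∧
          Tri n (C + E) m (c v) (c w) := fun k => by
      induction k using Nat.strong_induction_on with | h k ih => ?_
      intro t u hk pu inv kp ht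
      have T : Tri n (A + B) m (c v) (c u) := (hB m _ _ hm (inv.tri (K₀ := K) fun j hj => by
        by_cases q : j < i
        · exact Or.inl (kp j q).1
        · exact Or.inr (le_trans (by omega) ((hφ v p i (by omega)).trans (Nat.pow_le_pow_left
            (bs_mono le_rfl le_rfl (by omega) fun l a => (kp l a).1.ge) _))))).mono
              (by omega) (by omega) le_rfl
      obtain ⟨w, ⟨pw, a⟩, b⟩ := H u pu
        ((hE m L _ _ hm T (ok.mono (by omega) (by omega))).mono (by omega) (by omega))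
      have T' := (hC m _ _ _ hm T (b.mono (by omega) (by omega) le_rfl)).mono (K' := C + E)
        (by omega) (by omega) le_rfl
      have tr : ∀ j ≤ i, Kp c φ j u w → Kp c φ j v w := fun j q a l hl =>
        ⟨(a l hl).1.trans (kp l (by omega)).1, (a l hl).2.trans (kp l (by omega)).2⟩
      rcases a with ⟨a, d⟩ | ⟨j, hj, a, d⟩
      · exact ⟨w, ⟨pw, Or.inl ⟨a, tr i le_rfl fun l hl => d l (by omega)⟩⟩, T'⟩
      · by_cases q : j < i
        · exact ⟨w, ⟨pw, Or.inr ⟨j, q, a.trans_le (kp j q).2, tr j q.le d⟩⟩, T'⟩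
        · obtain rfl : j = i := by omega
          exact ih (φ w j) (by omega) (t + 1) w le_rfl pw (inv.succ b) (tr j le_rfl d) (by omega)
    exact key _ 0 v le_rfl p Inv.zero (fun _ _ => ⟨rfl, le_rfl⟩) (by omega)

/-- **while-loops**: invariant `I`, goal `D`, potentials `φ` (lexicographic, triangularly bounded);
a move lowers `φ j` for some `j` and keeps the costs and potentials of index `< j` -/
theorem arr_loop (n K : ℕ) : ∃ K', ∀ (m : ℕ) (L : ℝ) (V : Type u) (c φ : V → ℕ → ℕ)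
    (I D : V → Prop), 2 ≤ m → (∀ v, I v → ∀ i < n, φ v i ≤ bs n m (c v) (c v) i ^ K) →
      Arr n K m L c c (fun v => I v ∧ ¬ D v) (fun v w => I w ∧ Ev c φ n v w) →
        Arr n K' m L c c I fun _ w => I w ∧ D w := by
  obtain ⟨A, hA⟩ := loop_aux.{u} n K n
  exact ⟨A, fun m L V c φ I D hm a b => (hA m L V c φ I D 0 (zero_add n) hm a b).mono (by omega)
    le_rfl (fun _ a => a) fun _ _ _ ⟨a, b⟩ => ⟨a, b.elim And.left fun ⟨_, q, _⟩ => by omega⟩⟩

/-- **the step statement, second form** -/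
def Step' (k : ℕ) : Prop :=
  ∃ (n K j : ℕ) (c : ℝ), 0 < c ∧ ∀ (N m : ℕ) (A : Finset ℕ), 2 ≤ N → 2 ≤ m → A ⊆ Icc 1 N →
    Free k A → N * 2 ^ j ≤ 2 ^ m * #A → (m : ℝ) ^ K ≤ Real.log N →
      ∃ (V : Type u) (den : V → ℝ) (cost : V → ℕ → ℕ), (∀ v, den v ≤ 1) ∧
        (∃ v, 1 / 2 ^ m ≤ den v ∧ ∀ i < n, cost v i ≤ m ^ K) ∧
        Arr n K m (Real.log N) cost cost (fun v => 1 / 2 ^ m ≤ den v)
          fun v v' => (1 + c) * den v ≤ den v'

theorem Step'.step {k : ℕ} (h : Step'.{u} k) : Step k := by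
  obtain ⟨n, K, j, c, hc, h⟩ := h
  obtain ⟨E, hE⟩ := Sch.bound n K hc
  refine ⟨0, (j + 1) * (E + K), 1, one_pos, fun N m A hN hm hA hF h1 h2 => ?_⟩
  have a : m + j ≤ m ^ (j + 1) := by
    have : j + 1 ≤ m ^ j := Nat.lt_two_pow_self.trans_le (Nat.pow_le_pow_left hm _)
    rw [pow_succ]; nlinarith
  have b : ((m + j : ℕ) : ℝ) ^ (E + K) ≤ Real.log N := le_trans (by
    rw [pow_mul]; exact_mod_cast Nat.pow_le_pow_left a _) h2
  have m1 : (1 : ℝ) ≤ (m + j : ℕ) := by exact_mod_cast (by omega)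
  obtain ⟨V, den, cost, h3, h4, h5⟩ := h N (m + j) A hN (by omega) hA hF
    (by rw [pow_add, mul_right_comm]; exact Nat.mul_le_mul_right _ h1)
    ((pow_le_pow_right₀ m1 (by omega)).trans b)
  have := hE (m + j) _ (Set.range fun v => (den v, cost v)) (fun p => p.1.1) (fun p => p.1.2)
    (by omega) ⟨by rintro ⟨_, v, rfl⟩; exact h3 v, let ⟨v, a⟩ := h4; ⟨⟨_, v, rfl⟩, a⟩, by
      rintro ⟨_, v, rfl⟩ p ok
      obtain ⟨w, d, e⟩ := h5 v p ok
      exact ⟨⟨_, w, rfl⟩, d, fun i hi => (e i hi).2⟩⟩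
  exact absurd ((pow_le_pow_right₀ m1 (by omega)).trans b) (not_le.2 this)

/-- **the quasi-polynomial bound from the second form of the step** -/
theorem of_step' {k : ℕ} (h : Step'.{u} k) :
    ∃ C c ε : ℝ, 0 < C ∧ 0 < c ∧ 0 < ε ∧ ∀ N : ℕ, 2 ≤ N → ∀ A : Finset ℕ,
      A ⊆ Finset.Icc 1 N → (∀ a d : ℕ, 0 < d → ∃ i, i < k ∧ a + i * d ∉ A) →
        (A.card : ℝ) ≤ C * N * Real.exp (-(c * Real.log N ^ ε)) := of_step h.step

end Crest.Agent.N49.Top
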