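import Crest.Agent.N49.Top.St
import Crest.Agent.N49.Tw.Tw
import Crest.Agent.N49.Br.L0
import Crest.Agent.N49.Rf.Defs

/-!
# Row 49 (helper43): the grid states of the outer chain (FROZEN definitions)
-/

set_option autoImplicit false

open Matrix MvPolynomial Finset

noncomputable section

namespace Crest.Agent.N49.Top

open Po Tw Br

section grid
variable {ι : Type} [Fintype ι] [LinearOrder ι]

/-- the top-word ring of a grid with typed variances -/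
def gr (s : ℕ) (q : ι → ℕ) (v : ℕ → Finset ι → ℝ) : Sh Unit Unit :=
  Br.tw s (grid q) fun j w => v j (bl w)

/-- its points -/
def gp (s : ℕ) (q : ι → ℕ) (v : ℕ → Finset ι → ℝ) (ω : Pt ι) : (gr s q v).W → ℤ :=
  chi (fun j w => v j (bl w)) ω

/-- the product over the points of the grid -/
def PF (T : TS Unit) (s : ℕ) (q : ι → ℕ) (v : ℕ → Finset ι → ℝ) (f : Pt ι → (T.C → ℤ) → ℝ)
    (y : T.Cw (gr s q v) → ℤ) : ℝ := ∏ ω ∈ pts q, f ω (T.pw (gr s q v) (gp s q v ω) y)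

/-- the grid count of a twisted law -/
def GT (T : TS Unit) (s : ℕ) (q : ι → ℕ) (v : ℕ → Finset ι → ℝ) (Ψ : T.Twd (gr s q v))
    (f : Pt ι → (T.C → ℤ) → ℝ) : ℝ := (T.tw (gr s q v) Ψ).E (PF T s q v f)

/-- the grid count of the standard law -/
def GS (T : TS Unit) (s : ℕ) (q : ι → ℕ) (v : ℕ → Finset ι → ℝ) (f : (T.C → ℤ) → ℝ) : ℝ :=
  (T.sh (gr s q v)).E (PF T s q v fun _ => f)

end grid

/-- the normalised indicator function seen in a container -/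
def fA (V : Ctr) (A : Finset ℕ) (α : ℝ) (y : V.T.C → ℤ) : ℝ := (zs A).indicator 1 (V.x y) / α

/-- the fine scale -/
def Xs (s m : ℕ) (c : ℕ → ℕ) : ℕ := m + Nat.log 2 (tot (2 * s + 1) c)

/-- the costs of a container without the last one -/
structure Cs0 (s N : ℕ) (V : Ctr) (c : ℕ → ℕ) : Prop where
  ok : V.Ok s
  R : ∀ l ∈ Icc 1 s, V.Rc s l ≤ c (s - l)
  ct : ∀ l ∈ Icc 1 s, V.T.ct l ≤ 2 ^ c (2 * s - l)
  g : N * V.g1 ≤ 2 ^ c (2 * s - 1)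

theorem Cs0.of {s N : ℕ} {V : Ctr} {c : ℕ → ℕ} (h : V.Cs s N c) : Cs0 s N V c :=
  ⟨h.ok, h.R, h.ct, h.g⟩

theorem Cs0.cs {s N : ℕ} {V : Ctr} {c : ℕ → ℕ} (h : Cs0 s N V c)
    (z : V.T.Zc ≤ 2 ^ c (2 * s) * V.T.Z) : V.Cs s N c := ⟨h.ok, h.R, h.ct, h.g, z⟩

/-- grid states on `d + 1` blocks -/
structure Gs (d : ℕ) where
  V : Ctr
  st : V.T.C → ℕ
  M : ℕ
  Q : ℕ
  v : ℕ → Finset (Fin (d + 1)) → ℝ
  c : ℕ → ℕ

/-- **valid states**: excess `ε`, forward constants `≤ ε⁻¹`, regular for the budget `b` -/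
structure Gs.P (s d N m : ℕ) (A : Finset ℕ) (α ε : ℝ) (b : ℕ) (g : Gs d) : Prop where
  cs : Cs0 s N g.V g.c
  stg : g.V.T.Stg g.st g.M
  hM : g.M ≤ ⌊ε⁻¹⌋₊
  rg : g.V.T.RgS g.st g.M 1 (Xs s m g.c ^ b) (1 / 2 ^ Xs s m g.c ^ b) (1 / 2 ^ Xs s m g.c ^ b)
  Q1 : 1 ≤ g.Q
  hQ : g.Q ≤ Xs s m g.c ^ ⌊ε⁻¹⌋₊
  lo : ∀ j B, 1 / 2 ^ Xs s m g.c ^ ⌊ε⁻¹⌋₊ ≤ g.v j B
  hi : ∀ j B, g.v j B ≤ 1
  sy : ∀ j B B', g.v j B = g.v j B'
  pv : ∃ ρ : ℝ, 0 < ρ ∧ ∀ j ∈ Icc 1 s, ∀ B, g.v j B = ρ ^ j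
  ex : (1 + ε) ^ g.Q ^ (d + 1) ≤ GS g.V.T s (fun _ => g.Q) g.v (fA g.V A α)

/-- **the data of the chain** (levels `≤ s`) -/
def sd (s : ℕ) : Dat.{1} := dat s Gs (fun _ g => g.c) (Gs.P s)

end Crest.Agent.N49.Top

end
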