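import Crest.Agent.N49.Top.Glue
import Crest.Agent.N49.Tw.Exp
import Crest.Agent.N49.Rf.Defs

/-!
# Row 49 (helper27): containers with costs, the first container
-/

set_option autoImplicit false
open Finset Matrix MvPolynomial

noncomputable section

namespace Crest.Agent.N49.Top
open Tw Po

/-- a set of naturals inside `ℤ` -/
def zs (A : Finset ℕ) : Set ℤ := {x | ∃ a ∈ A, (a : ℤ) = x}

/-- integer progressions in a free set are constant -/
theorem free_int {k : ℕ} {A : Finset ℕ} (h : Free k A) {a d : ℤ} (hd : d ≠ 0)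
    (hk : 1 ≤ k) : ∃ i < k, a + i * d ∉ zs A := by
  wlog p : 0 < d generalizing a d
  · obtain ⟨i, hi, e⟩ := this (a := a + (k - 1 : ℕ) * d) (neg_ne_zero.2 hd) (by omega)
    refine ⟨k - 1 - i, by omega, ?_⟩
    convert e using 2
    rw [Nat.cast_sub (by omega)]; ring
  by_contra c
  push Not at c
  obtain ⟨b, -, e⟩ := c 0 hk
  obtain ⟨i, hi, f⟩ := h b d.toNat (by omega)
  obtain ⟨x, hx, g⟩ := c i hi
  refine f ((?_ : x = b + i * d.toNat) ▸ hx)
  zify
  rw [Int.toNat_of_nonneg p.le, g, e]; ring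

theorem cs_mono {s N : ℕ} {V : Ctr} {c c' : ℕ → ℕ} (h : V.Cs s N c) (hs : 1 ≤ s)
    (k : ∀ i < 2 * s + 1, c i ≤ c' i) : V.Cs s N c' :=
  ⟨h.ok, fun l a => (h.R l a).trans (k _ (by omega)),
    fun l a => (h.ct l a).trans (pow_le_pow_right₀ one_le_two (k _ (by omega))),
    h.g.trans (pow_le_pow_right₀ one_le_two (k _ (by omega))),
    h.z.trans (mul_le_mul_of_nonneg_right (pow_le_pow_right₀ one_le_two (k _ (by omega)))
      h.ok.1.Z_pos.le)⟩

/-- the chain data, given the grid states -/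
def dat (s : ℕ) (G : ℕ → Type 1) (cG : ∀ d, G d → ℕ → ℕ)
    (P : ∀ d, ℕ → ℕ → Finset ℕ → ℝ → ℝ → ℕ → G d → Prop) : Dat.{1} where
  n := 2 * s + 1
  V := Ctr × (ℕ → ℕ)
  G := G
  cV v := v.2
  cG := cG
  den A v := v.1.den (zs A)
  ok N v := v.1.Cs s N v.2
  P := P

/-- the first tower -/
abbrev T0 (N : ℕ) : TS Unit where
  C := Unit
  deg _ := Finsupp.single () 1
  Φ _ := X ()
  K := ((N : ℝ) ^ 2) • 1

theorem T0_lev (N : ℕ) (c : (T0 N).C) : (T0 N).lev c = 1 := by simp [TS.lev]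

theorem T0_A (N : ℕ) : (T0 N).A = 1 := by
  ext c c'
  rw [TS.A, of_apply, if_pos rfl]
  change coeff (Finsupp.single () 1) (X () : MvPolynomial Unit ℝ) = (1 : Matrix Unit Unit ℝ) () ()
  simp

theorem T0_D (N : ℕ) : (T0 N).D = ((N : ℝ) ^ 2) • 1 := by
  rw [TS.D, T0_A]; simp [T0]

theorem T0_tri {N : ℕ} (h : 1 ≤ N) : (T0 N).Tri where
  tri c m hm := by
    have : m = Finsupp.single () 1 := by simpa [T0, support_X] using hm
    rw [this, Finsupp.weight_single]; simp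
  ne c := by simp
  det := by simp [T0_A]
  pd := PosDef.one.smul (by positivity)
  blk c c' _ := rfl

section one
variable {d : Type} [Fintype d] [DecidableEq d]

theorem th_le_two (hd : Fintype.card d ≤ 1) {t : ℝ} (ht : 2 ≤ t) :
    th (t • (1 : Matrix d d ℝ)) 0 ≤ 2 := by
  have a := th_short (M := t • (1 : Matrix d d ℝ)) (PosDef.one.smul (by linarith)) (R := 2)
    fun n hn => by
      obtain ⟨i, hi⟩ := Function.ne_iff.1 hn
      have b : (1 : ℝ) ≤ zc n i * zc n i := by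
        have : (1 : ℤ) ≤ n i * n i := mul_self_pos.2 hi
        simp only [zc]; exact_mod_cast this
      have c : zc n i * zc n i ≤ qf 1 (zc n) := by
        rw [qf, one_mulVec]
        exact single_le_sum (f := fun j => zc n j * zc n j) (fun _ _ => mul_self_nonneg _)
          (mem_univ i)
      rw [qf_smul]; nlinarith
  have b := bz_le (d := d) (R := 2) (L := 1) (by
    have : (Fintype.card d : ℝ) ≤ 1 := by exact_mod_cast hd
    linarith) zero_le_one
  have c : Real.exp (-1) ≤ 1 / 2 := by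
    rw [Real.exp_neg, one_div]
    exact inv_anti₀ two_pos (by linarith [Real.add_one_le_exp 1])
  nlinarith [th_nonneg (t • (1 : Matrix d d ℝ)) 0]

theorem dt_inv_sq [Unique d] {t : ℝ} (ht : 0 < t) : dt ((t ^ 2) • (1 : Matrix d d ℝ))⁻¹ = t := by
  rw [dt_inv, dt, inv_inv, det_unique]
  simp [Real.sqrt_sq ht.le]

end one

theorem T0_sub (N l : ℕ) : (T0 N).D.submatrix (Subtype.val : {c // (T0 N).lev c = l} → _)
    (Subtype.val : {c // (T0 N).lev c = l} → _) = ((N : ℝ) ^ 2) • 1 := by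
  rw [T0_D, submatrix_smul, Pi.smul_apply, Pi.smul_apply, submatrix_one _ Subtype.val_injective]

theorem start_ok {s N : ℕ} (hs : 1 ≤ s) (hN : 2 ≤ N) :
    Ctr.Cs s N ⟨T0 N, fun _ => 1, 0⟩ fun _ => 1 := by
  have N2 : (2 : ℝ) ≤ N := by exact_mod_cast hN
  have t := T0_tri (show 1 ≤ N by omega)
  refine ⟨⟨t, fun F => (T0_lev N F).le.trans hs, fun F _ => T0_lev N F⟩,
    fun l _ => ?_, fun l _ => ?_, ?_, ?_⟩
  · refine le_trans (sum_le_sum (g := fun j => if 1 = j then 1 else 0) fun j _ => ?_) ?_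
    · change #{c | (T0 N).lev c = j} ≤ _
      simp only [T0_lev]
      split_ifs with h <;> simp [h]
    · rw [sum_ite_eq]; split_ifs <;> simp
  · rw [TS.ct, T0_sub, pow_one]
    exact th_le_two ((Fintype.card_subtype_le _).trans (le_of_eq rfl)) (by nlinarith)
  · let _ : Unique {c // (T0 N).lev c = 1} := ⟨⟨⟨(), T0_lev N ()⟩⟩, fun _ => Subtype.ext rfl⟩
    change N * (Sp.ks _ _ _ / th _ _) ≤ _
    rw [T0_sub]
    set M := (((N : ℝ) ^ 2) • (1 : Matrix {c // (T0 N).lev c = 1} {c // (T0 N).lev c = 1} ℝ))⁻¹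
    have p : M.PosDef := (PosDef.one.smul (by positivity)).inv
    have a : (N : ℝ) ≤ th M 0 := (dt_inv_sq (by linarith)).ge.trans (dt_le_th p)
    have b : Sp.ks M 0 {n | (fun _ => (1 : ℤ)) ⬝ᵥ n = 0} = 1 := by
      rw [Sp.ks, tsum_eq_single 0 fun n hn => Set.indicator_of_notMem (fun e => hn ?_) _]
      · rw [Set.indicator_of_mem (by simp), zc_zero, sub_zero, gs_zero]
      · funext c
        rw [Subsingleton.elim c default]
        simpa [dotProduct] using e
    rw [b, mul_one_div, div_le_iff₀ (th_pos p 0)]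
    exact a.trans (le_mul_of_one_le_left (th_nonneg _ _) (one_le_pow₀ one_le_two))
  · have : (T0 N).Z = th (T0 N).D⁻¹ 0 := tsum_congr fun y => by
      rw [TS.wt, T0_D, sub_zero]
      congr 1
      funext c; simp [TS.u, T0]
    have a := dt_le_th t.pd_Di
    have b := t.Z_pos
    change (T0 N).Zc ≤ 2 ^ 1 * (T0 N).Z
    rw [TS.Zc]; linarith

theorem start_den {N : ℕ} (hN : 2 ≤ N) {A : Finset ℕ} (hA : A ⊆ Icc 1 N) :
    (#A : ℝ) / (64 * N) ≤ Ctr.den ⟨T0 N, fun _ => 1, 0⟩ (zs A) := by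
  have N2 : (2 : ℝ) ≤ N := by exact_mod_cast hN
  have t := T0_tri (show 1 ≤ N by omega)
  have w : ∀ y, (T0 N).wt y = gs (T0 N).D⁻¹ (zc y - 0) := fun y => by
    rw [TS.wt, T0_D, sub_zero]
    congr 1
    funext c; simp [TS.u, T0]
  have z : (T0 N).Z ≤ 2 * N := by
    rw [TS.Z, tsum_congr w, ← th, th_dual t.pd_Di, inv_inv' t.pd_D, T0_D, mul_comm]
    exact mul_le_mul (th_le_two (d := Unit) le_rfl (by nlinarith))
      (dt_inv_sq (d := Unit) (by linarith)).le (dt_pos (T0_D N ▸ t.pd_Di)).le zero_le_two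
  have e : Real.exp Real.pi ≤ 32 := by
    have a : Real.exp Real.pi ≤ Real.exp 1 ^ 3 * Real.exp (1 / 5) := by
      rw [← Real.exp_nat_mul, ← Real.exp_add]
      exact Real.exp_le_exp.2 (by linarith [Real.pi_lt_d2])
    have b := Real.exp_one_lt_d9
    have c := Real.exp_bound_div_one_sub_of_interval' (x := 1 / 5) (by norm_num) (by norm_num)
    have d : Real.exp 1 ^ 3 ≤ 2.72 ^ 3 := pow_le_pow_left₀ (Real.exp_pos _).le (by linarith) 3
    nlinarith [Real.exp_pos (1 / 5)]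
  set S : Set ((T0 N).C → ℤ) := {y | Ctr.x ⟨T0 N, fun _ => 1, 0⟩ y ∈ zs A}
  have s : (#A : ℝ) / 32 ≤ (T0 N).S (S.indicator 1) := by
    have inj : Set.InjOn (fun (a : ℕ) (_ : (T0 N).C) => (a : ℤ)) A := fun a _ b _ h => by
      exact Nat.cast_injective (R := ℤ) (congrFun h ())
    refine le_trans ?_ ((t.sm (Bb.ind S)).sum_le_tsum (A.image fun (a : ℕ) _ => (a : ℤ))
      fun y _ => mul_nonneg (TS.wt_pos _ y).le (ind_nonneg _ _))
    rw [sum_image inj, div_eq_mul_inv, ← nsmul_eq_mul]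
    refine card_nsmul_le_sum _ _ _ fun a ha => ?_
    rw [Set.indicator_of_mem (show _ ∈ S from ⟨a, ha, by simp [Ctr.x, T0]⟩), Pi.one_apply, mul_one,
      w, gs, Real.exp_neg]
    refine inv_anti₀ (Real.exp_pos _) ((Real.exp_le_exp.2
      (mul_le_of_le_one_right Real.pi_pos.le ?_)).trans e)
    have b : (a : ℝ) ≤ N := by exact_mod_cast (mem_Icc.1 (hA ha)).2
    rw [T0_D, Po.inv_smul' PosDef.one (by positivity), inv_one, qf_smul, inv_mul_le_iff₀ (by positivity)]
    have : qf (1 : Matrix Unit Unit ℝ) (zc (fun _ => (a : ℤ)) - 0) = a * a := by simp [qf, zc]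
    exact this.le.trans (by nlinarith [Nat.cast_nonneg (α := ℝ) a])
  change _ ≤ (T0 N).S (S.indicator 1) / (T0 N).Z
  rw [show (#A : ℝ) / (64 * N) = #A / 32 / (2 * N) by ring]
  exact div_le_div₀ (le_trans (by positivity) s) s t.Z_pos z

variable {s : ℕ} {G : ℕ → Type 1} {cG : ∀ d, G d → ℕ → ℕ}
  {P : ∀ d, ℕ → ℕ → Finset ℕ → ℝ → ℝ → ℕ → G d → Prop}

theorem dat_start (hs : 1 ≤ s) : (dat s G cG P).Start := by
  refine ⟨0, 6, fun N m A hN _ hA h => ⟨(_, _), start_ok hs hN, le_trans ?_ (start_den hN hA),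
    fun _ _ => le_rfl⟩⟩
  have : (0 : ℝ) < N := by exact_mod_cast (by omega)
  rw [div_le_div_iff₀ (by positivity) (by positivity), one_mul, mul_comm, mul_comm (#A : ℝ)]
  exact_mod_cast h

/-- **the row from the three links** (`j + 1` grid states, towers with `s` levels) -/
theorem row {k : ℕ} (j : ℕ) (hs : 1 ≤ s) (hl : (dat s G cG P).Lst k j)
    (hd : ∀ d < j, (dat s G cG P).Dst k d) (hz : (dat s G cG P).Zst k) :
    ∃ C c ε : ℝ, 0 < C ∧ 0 < c ∧ 0 < ε ∧ ∀ N : ℕ, 2 ≤ N → ∀ A : Finset ℕ,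
      A ⊆ Finset.Icc 1 N → (∀ a d : ℕ, 0 < d → ∃ i, i < k ∧ a + i * d ∉ A) →
        (A.card : ℝ) ≤ C * N * Real.exp (-(c * Real.log N ^ ε)) :=
  of_step' (Dat.step j (fun _ _ _ h => (Ctr.Cs.ok h).1.P_le_one _) (dat_start hs) hl hd hz)

end Crest.Agent.N49.Top

end
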