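import Crest.Agent.N49.Top.Xs
import Crest.Agent.N49.En.Defs
import Crest.Agent.N49.Tw.Mono
import Crest.Agent.N49.Br.Vis
import Crest.Agent.N49.Tw.Api
import Crest.Agent.N49.Rf.G1

/-!
# Row 49 (helper27): a kit for the links, the last link
-/

set_option autoImplicit false
open Finset

namespace Crest.Agent.N49.Top
open Po Tw Br

section kit

theorem tw0_E {σ τ : Type} [DecidableEq σ] (T : TS σ) (S : Sh σ τ) (g : (T.Cw S → ℤ) → ℝ) :
    (T.tw S (T.tw0 S)).E g = (T.sh S).E g :=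
  congrArg (fun Φ => ((T.sh S).setΦ Φ).E g)
    (funext fun p => congrArg (S.cf _ p.1.2) (TS.eval₂_tw0 _ _))

variable {ι : Type} [Fintype ι] [LinearOrder ι]

theorem card_pts (q : ι → ℕ) : #(pts q) = ∏ i, q i := by
  simp [pts, card_image_of_injective _ (Option.some_injective ℕ)]

theorem card_grid (q : ι → ℕ) : #(grid q) = ∏ i, (q i + 1) := by simp [grid]

/-- one constant for finitely many numbers of stages -/
theorem unif_C {P : ℕ → ℕ → Prop} (h : ∀ M, ∃ C, P M C) (mo : ∀ M C C', P M C → C ≤ C' → P M C')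
    (E : ℕ) : ∃ C, ∀ M ≤ E, P M C := by
  choose f hf using h
  exact ⟨∑ M ∈ range (E + 1), f M, fun M k => mo M _ _ (hf M)
    (single_le_sum (f := f) (fun _ _ => Nat.zero_le _) (mem_range.2 (by omega)))⟩

theorem ex_le {X e b : ℕ} (hX : 1 ≤ X) (h : e ≤ b) : (1 / 2 ^ X ^ b : ℝ) ≤ 1 / 2 ^ X ^ e :=
  one_div_le_one_div_of_le (by positivity)
    (pow_le_pow_right₀ one_le_two (Nat.pow_le_pow_right hX h))

theorem ex_half {X e : ℕ} (hX : 1 ≤ X) : (1 / 2 ^ X ^ e : ℝ) ≤ 1 / 2 :=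
  (ex_le hX (Nat.zero_le e)).trans_eq (by simp)

/-- from the budget of a state to the parameters of a shape -/
theorem rg_of {T : TS Unit} {st : T.C → ℕ} {M C X b e n : ℕ} {a η : ℝ}
    (h : T.RgS st M 1 (X ^ b) (1 / 2 ^ X ^ b) (1 / 2 ^ X ^ b)) (hs : T.Stg st M) (hX : 1 ≤ X)
    (hn : n + 1 ≤ X ^ e) (hb : e * C ≤ b) (ha : 1 / 2 ^ X ^ b ≤ a) (hη : 1 / 2 ^ X ^ b ≤ η) :
    T.RgS st M C n a η := by
  have p : ((n : ℝ) + 1) ^ C ≤ ((X ^ b : ℕ) + 1) ^ 1 := by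
    have := (Nat.pow_le_pow_left hn C).trans ((pow_mul X e C).ge.trans (Nat.pow_le_pow_right hX hb))
    rw [pow_one]; exact_mod_cast this.trans (Nat.le_succ _)
  have o : (1 / 2 ^ X ^ b : ℝ) ≤ 1 := (ex_half hX).trans (by norm_num)
  exact (h.mono' hs.tri (by positivity) o p (mul_le_mul p ha (by positivity) (by positivity))).mono
    hs.tri (by positivity) o le_rfl le_rfl le_rfl hη

variable {V : Ctr} {A : Finset ℕ} {α : ℝ}

theorem fA_nonneg (h : 0 ≤ α) (y : V.T.C → ℤ) : 0 ≤ fA V A α y := div_nonneg (ind_nonneg _ _) h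

theorem fA_le {m : ℕ} (h : 1 / 2 ^ m ≤ α) (y : V.T.C → ℤ) : fA V A α y ≤ 2 ^ m :=
  (div_le_div₀ zero_le_one (ind_le _ _) (by positivity) h).trans_eq (one_div_one_div _)

theorem fA_bb : Bb (fA V A α) := ((Bb.ind (zs A)).comp V.x).mul (Bb.const α⁻¹)

theorem fA_E : V.T.E (fA V A α) = V.den (zs A) / α := by
  rw [Ctr.den, TS.P, div_eq_inv_mul, ← TS.E_mul]
  refine congrArg _ (funext fun y => ?_)
  rw [fA, div_eq_inv_mul]; rfl

theorem fA_eq : En.fA V (zs A) α = fA V A α := funext fun y => by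
  rw [En.fA, fA]
  split_ifs with h
  · rw [Set.indicator_of_mem h, Pi.one_apply, one_div]
  · rw [Set.indicator_of_notMem h, zero_div]

/-- the costs after narrowing all the levels by `2 ^ Y` -/
def nc (s Y : ℕ) (c : ℕ → ℕ) (i : ℕ) : ℕ := c i + if i < s then 0 else Y * c (i - s) + 1

theorem nc_tri {s m E Y : ℕ} {c : ℕ → ℕ} (hs : 1 ≤ s) (hm : 2 ≤ m) (hY : Y ≤ Xs s m c ^ E) :
    Tri (2 * s + 1) (E + 2) m c (nc s Y c) := fun i _ => ⟨Nat.le_add_right _ _, by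
  refine Nat.add_le_add_left ?_ _
  split_ifs with h
  · exact Nat.zero_le _
  set B := bs (2 * s + 1) m c (nc s Y c) i
  have a : Xs s m c ≤ B := Nat.le_add_right _ _
  have b : c (i - s) ≤ B := le_trans (le_trans (Nat.le_add_right _ _) (single_le_sum
    (f := nc s Y c) (fun _ _ => Nat.zero_le _) (mem_range.2 (by omega)))) (Nat.le_add_left _ _)
  have d : 2 ≤ B := hm.trans (le_bs i)
  have e := Nat.mul_le_mul (hY.trans (Nat.pow_le_pow_left a E)) b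
  have f : 0 < B ^ E * B := by positivity
  rw [pow_succ, pow_succ]; nlinarith⟩

theorem Cs0.nc {s N Y : ℕ} {c : ℕ → ℕ} (h : Cs0 s N V c) (hs : 1 ≤ s) {V' : Ctr} (ok : V'.Ok s)
    (R : ∀ l, V'.T.R l = V.T.R l) (ct : ∀ l, V'.T.ct l ≤ (2 ^ Y) ^ V.T.R l * V.T.ct l)
    (g : V'.g1 ≤ (2 ^ Y) ^ V.T.R 1 * V.g1) : Cs0 s N V' (nc s Y c) := by
  have r : ∀ l ∈ Icc 1 s, ((2 : ℝ) ^ Y) ^ V.T.R l * 2 ^ c (2 * s - l) ≤ 2 ^ Top.nc s Y c (2 * s - l) :=
    fun l k => by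
      have k' := mem_Icc.1 k
      have : V.T.R l ≤ c (s - l) := le_trans (single_le_sum (f := V.T.R) (fun _ _ => Nat.zero_le _)
        (mem_Icc.2 ⟨le_rfl, k'.2⟩)) (h.R l k)
      rw [← pow_mul, ← pow_add, Top.nc, if_neg (by omega), show 2 * s - l - s = s - l by omega]
      exact pow_le_pow_right₀ one_le_two (by nlinarith)
  refine ⟨ok, fun l k => le_trans (le_of_eq (sum_congr rfl fun j _ => R j))
    ((h.R l k).trans (Nat.le_add_right _ _)), fun l k => (ct l).trans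
    ((mul_le_mul_of_nonneg_left (h.ct l k) (by positivity)).trans (r l k)), ?_⟩
  refine (mul_le_mul_of_nonneg_left g (Nat.cast_nonneg _)).trans ?_
  rw [mul_left_comm]
  exact (mul_le_mul_of_nonneg_left h.g (by positivity)).trans (r 1 (mem_Icc.2 ⟨le_rfl, hs⟩))

theorem z_of_mas {T : TS Unit} {η : ℝ} (h : T.Mas η) (e : η ≤ 1 / 2) {j : ℕ} (hj : 1 ≤ j) :
    T.Zc ≤ 2 ^ j * T.Z := by
  have a := (abs_le.1 (h.mono e)).1
  have b : (2 : ℝ) ^ 1 ≤ 2 ^ j := pow_le_pow_right₀ one_le_two hj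
  nlinarith [T.Z_nonneg]

theorem sqrt_inv_le (Y : ℕ) : (√(1 / 2 ^ Y))⁻¹ ≤ (2 : ℝ) ^ Y := by
  have a : (1 / 2 ^ Y : ℝ) ≤ 1 := (div_le_one (by positivity)).2 (one_le_pow₀ one_le_two)
  have b : (0 : ℝ) < 1 / 2 ^ Y := by positivity
  exact (inv_anti₀ b (Real.le_sqrt_of_sq_le (by nlinarith))).trans_eq (by simp)

end kit

/-- **the last link** -/
theorem zst_of {s : ℕ} (k : ℕ) (hs : 1 ≤ s) (he : En.END0) (hm : ∀ M, ∃ C, MAST M C) :
    (sd s).Zst k := fun ε h => by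
  obtain ⟨C, hC⟩ := unif_C hm (fun _ _ _ => MAST.mono) ⌊ε⁻¹⌋₊
  set E := ⌊ε⁻¹⌋₊
  refine ⟨ε, h, (E + s + 1) * C + E, E + 2, fun N m A α y (g : Gs 0) (p : g.P s 0 N m A α ε _) _ => ?_⟩
  have m2 := y.m2
  have X2 : 2 ≤ Xs s m g.c := m2.trans (le_Xs _)
  set X := Xs s m g.c with hX
  have a0 : 0 < α := lt_of_lt_of_le (by positivity) y.lo
  have sz := tw_sz (s := s) (V := fun j w => g.v j (bl w)) (dc_grid fun _ : Fin 1 => g.Q)
    (n := s * (g.Q + 1)) (a := 1 / 2 ^ X ^ E) (by positivity) (fun _ _ => p.lo _ _)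
    (by nlinarith) (by simp [card_grid])
  have n : s * (g.Q + 1) + 1 ≤ X ^ (E + s + 1) := by
    have a : 2 * s + 1 ≤ X ^ (s + 1) := by
      have := (Nat.lt_two_pow_self (n := s)).trans_le (Nat.pow_le_pow_left X2 s)
      rw [pow_succ]; nlinarith
    have b := p.hQ
    have c : 0 < X ^ E := by positivity
    rw [add_assoc, pow_add]; nlinarith
  obtain ⟨ω, -, t, e, z, ct, g1⟩ := he s g.M C _ _ (1 / 2) (1 + ε) g.V.T g.st (fun _ => g.Q) _
    (g.V.T.tw0 _) (fA g.V A α) (hC _ p.hM) ⟨p.stg, p.stg.adm sz.toOk, by norm_num, by norm_num,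
      rg_of p.rg p.stg (by omega) n (Nat.le_add_right _ _) (ex_le (by omega) (by omega))
        (ex_half (by omega)), sz⟩ hs p.cs.ok.2.1 p.Q1 (fun _ _ => ⟨p.lo _ _, p.hi _ _⟩)
    (by positivity) (fA_nonneg a0.le) fA_bb (by positivity)
    (le_trans (by simp [card_pts]) (p.ex.trans_eq (tw0_E _ _ _).symm))
  have w : ∀ l, (√(1 / 2 ^ X ^ E))⁻¹ ^ g.V.T.R l ≤ ((2 : ℝ) ^ X ^ E) ^ g.V.T.R l := fun l =>
    pow_le_pow_left₀ (by positivity) (sqrt_inv_le _) _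
  generalize g.V.T.tw0 _ = Ψ at t e z ct g1
  generalize (chi _ ω : (tw s (grid fun _ : Fin 1 => g.Q) _).W → ℤ) = χ at t e z ct g1
  let V' : Ctr := ⟨g.V.T.ev _ Ψ χ, g.V.π, g.V.c⟩
  have cs : Cs0 s N V' (nc s (X ^ E) g.c) := p.cs.nc hs ⟨t, p.cs.ok.2⟩ (fun _ => rfl)
    (fun l => (ct l).trans (mul_le_mul_of_nonneg_right (w l) (th_nonneg _ _)))
    ((g1 _).trans (mul_le_mul_of_nonneg_right (w 1) (TS.g1_nonneg _ _)))
  have de : (1 + ε) * α ≤ V'.den (zs A) := (le_div_iff₀ a0).1 (e.trans_eq (fA_E (V := V')))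
  exact ⟨(V', nc s (X ^ E) g.c), ⟨cs.cs (z_of_mas z le_rfl (by
    rw [nc, if_neg (by omega)]; omega)), de⟩, nc_tri hs m2 le_rfl⟩

end Crest.Agent.N49.Top
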