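import Crest.Agent.N49.Top.Sd

/-!
# Row 49 (helper27): the fine scale inside a link, the row from the links
-/

set_option autoImplicit false
open Finset

namespace Crest.Agent.N49.Top

variable {s : ℕ}

theorem le_Xs {m : ℕ} (c : ℕ → ℕ) : m ≤ Xs s m c := Nat.le_add_right _ _

theorem Ok.Xs {K m N : ℕ} {c : ℕ → ℕ} (h : Ok (2 * s + 1) K m (Lm N m) c) (hK : 1 ≤ K) :
    Xs s m c ≤ 2 * m := by
  have := h.lg hK
  unfold Top.Xs; omega

/-- the fine scale of the OUTPUT of a link is at most `2 m` -/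
theorem xs_out (s K : ℕ) : ∃ K', ∀ N m c c', 2 ≤ m → Tri (2 * s + 1) K m c c' →
    Ok (2 * s + 1) K' m (Lm N m) c → Xs s m c' ≤ 2 * m :=
  let ⟨K', h⟩ := ok_tri (2 * s + 1) (K + 1)
  ⟨K', fun _ m c c' hm t o =>
    (h m _ c c' hm (t.mono (by omega) (by omega) le_rfl) o).Xs (by omega)⟩

/-- **the row from the three links** -/
theorem row_sd {k : ℕ} (j : ℕ) (hs : 1 ≤ s) (hl : (sd s).Lst k j)
    (hd : ∀ d < j, (sd s).Dst k d) (hz : (sd s).Zst k) :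
    ∃ C c ε : ℝ, 0 < C ∧ 0 < c ∧ 0 < ε ∧ ∀ N : ℕ, 2 ≤ N → ∀ A : Finset ℕ,
      A ⊆ Finset.Icc 1 N → (∀ a d : ℕ, 0 < d → ∃ i, i < k ∧ a + i * d ∉ A) →
        (A.card : ℝ) ≤ C * N * Real.exp (-(c * Real.log N ^ ε)) := row j hs hl hd hz

end Crest.Agent.N49.Top
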