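import Mathlib

/-!
# Row 49 (helper27): polynomial bounds `f y ≤ y ^ e` (tactic `pl`)
-/

set_option autoImplicit false

namespace Crest.Agent.N49.Top

/-- `f` is bounded by a power -/
def Pl (f : ℕ → ℕ) : Prop := ∃ e, ∀ y, 2 ≤ y → f y ≤ y ^ e

variable {f g : ℕ → ℕ}

theorem Pl.const (c : ℕ) : Pl fun _ => c :=
  ⟨c, fun _ h => Nat.lt_two_pow_self.le.trans (Nat.pow_le_pow_left h c)⟩

theorem Pl.id : Pl fun y => y := ⟨1, fun y _ => (pow_one y).ge⟩

theorem Pl.mul : Pl f → Pl g → Pl fun y => f y * g y := fun ⟨a, h⟩ ⟨b, k⟩ =>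
  ⟨a + b, fun y e => (Nat.mul_le_mul (h y e) (k y e)).trans_eq (pow_add _ _ _).symm⟩

theorem Pl.add : Pl f → Pl g → Pl fun y => f y + g y := fun ⟨a, h⟩ ⟨b, k⟩ =>
  ⟨a + b + 1, fun y e => by
    have := (h y e).trans (Nat.pow_le_pow_right (by omega) (Nat.le_add_right a b))
    have := (k y e).trans (Nat.pow_le_pow_right (by omega) (Nat.le_add_left b a))
    have := Nat.mul_le_mul_left (y ^ (a + b)) e
    rw [pow_succ]; beta_reduce; omega⟩

theorem Pl.pow (n : ℕ) : Pl f → Pl fun y => f y ^ n := fun ⟨a, h⟩ =>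
  ⟨a * n, fun y e => (Nat.pow_le_pow_left (h y e) n).trans_eq (pow_mul _ _ _).symm⟩

/-- the exponent can be chosen large -/
theorem Pl.ge (h : Pl f) (E : ℕ) : ∃ e, E ≤ e ∧ ∀ y, 2 ≤ y → f y ≤ y ^ e :=
  let ⟨a, h⟩ := h
  ⟨E + a, by omega, fun y e => (h y e).trans (Nat.pow_le_pow_right (by omega) (by omega))⟩

/-- closes goals `Pl fun y => polynomial expression` -/
macro "pl" : tactic => `(tactic| repeat' first
  | exact Pl.id | exact Pl.const _ | apply Pl.add | apply Pl.mul | apply Pl.pow)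

example (s j : ℕ) : Pl fun y => ((s + 3) * (2 * (j * y) + 2) + 1) ^ s + s * (y + 3) ^ (s + 1) := by
  pl

end Crest.Agent.N49.Top
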