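import Crest.Agent.N49.Top.Zst
import Crest.Agent.N49.Top.Pl
import Crest.Agent.N49.En.L1d
import Crest.Agent.N49.Un.Pre
import Crest.Agent.N49.Un.Visx
import Crest.Agent.N49.Jb.RegS

/-!
# Row 49 (helper27): the first link
-/

set_option autoImplicit false
open Finset Nat

namespace Crest.Agent.N49.Top
open Po Tw Br

theorem lam_ok {η : ℝ} {u m r w : ℕ} (h0 : 0 < η) (h1 : η ≤ 1) (hr : r ≤ 2 ^ m) {x : ℝ} (x0 : 0 ≤ x)
    (hu : x * w * 2 / η < 2 ^ u) : (1 + (1 / 2 ^ (m + u)) ^ 2 * x) ^ (w * r) ≤ 1 + η := by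
  have a : ((1 : ℝ) / 2 ^ (m + u)) ^ 2 ≤ 1 / 2 ^ (m + u) :=
    pow_le_of_le_one (by positivity) (by simpa using Un.half_le (Nat.zero_le _)) two_ne_zero
  have b := Un.half_mul (a := u) (b := m + u) hr (by omega)
  have c : ((w * r : ℕ) : ℝ) * ((1 / 2 ^ (m + u)) ^ 2 * x) ≤ η / 2 := by
    rw [div_lt_iff₀ h0] at hu
    calc _ = x * w * ((1 / 2 ^ (m + u)) ^ 2 * r) := by push_cast; ring
      _ ≤ x * w * (1 / 2 ^ u) := by
        gcongr; exact (mul_le_mul_of_nonneg_right a (Nat.cast_nonneg _)).trans b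
      _ ≤ _ := by rw [mul_one_div, div_le_iff₀ (by positivity)]; linarith
  refine (pow_le_pow_left₀ (by positivity) ((add_comm _ _).trans_le (Real.add_one_le_exp _)) _).trans ?_
  rw [← Real.exp_nat_mul]
  refine (Real.exp_le_exp.2 c).trans ((Real.exp_bound_div_one_sub_of_interval (by positivity)
    (by linarith)).trans ?_)
  rw [div_le_iff₀ (by linarith)]; nlinarith

theorem Ok.lt {n K m N Y : ℕ} {c : ℕ → ℕ} (h : Ok n K m (Lm N m) c) (hm : 2 ≤ m) (hN : 2 ≤ N)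
    (hY : Y ≤ (m + tot n c) ^ K) : (2 : ℝ) ^ Y < N := by
  have a := h.log
  rw [← Nat.cast_pow, Real.le_log_iff_exp_le (by positivity), ← Real.exp_one_pow] at a
  refine lt_of_le_of_lt (pow_le_pow_right₀ one_le_two hY) (lt_of_lt_of_le ?_ a)
  exact pow_lt_pow_left₀ (by linarith [Real.exp_one_gt_d9]) zero_le_two (by positivity)

/-- from a regular container to a pre-state -/
def LP (s : ℕ) : Prop := ∃ ε : ℝ, 0 < ε ∧ ∃ E j, ∀ b, ∃ b' K, ∀ N m A α, Hy (s + 2) N m A α →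
  ∀ (V : Ctr) (c : ℕ → ℕ), V.Cs s N c → V.T.RgS V.T.lev s 1 (Xs s m c ^ b') (1 / 2 ^ Xs s m c ^ b')
    (1 / 2 ^ Xs s m c ^ b') → α - 1 / 2 ^ (m + j) ≤ V.den (zs A) → Ok (2 * s + 1) K m (Lm N m) c →
      Un.Pre s s N m A α ε E b c

theorem lp_of {s : ℕ} (hs : 1 ≤ s) (h1 : En.L1) (hm : ∃ C, MAST s C ∧ PTMT s C) : LP s := by
  obtain ⟨C, ma, pt⟩ := hm
  obtain ⟨x, η, a, j, x1, η0, η1, h⟩ := h1 s hs
  obtain ⟨i, hi⟩ := pow_unbounded_of_one_lt η⁻¹ one_lt_two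
  obtain ⟨u, hu⟩ := pow_unbounded_of_one_lt (((s : ℝ) + 2) ^ 3 * s * 2 / η) one_lt_two
  obtain ⟨E, sE, hE⟩ := (show Pl fun m => ((s + 3) * (2 * (j * m) + 2) + 1) ^ s +
    s * (2 * (j * m) + 2 + 1) ^ (s + 1) + (2 * (j * m) + 2) + (m + u + (s + 2)!) * (2 * s) +
    (a + m + 12 * (2 * (j * m) + 2) ^ (s + 3)) by pl).ge s
  obtain ⟨K, K1, hK⟩ := (show Pl fun y => 2 + y * (s + 2) + y +
    ((y + u) * (s * y) + y * s) * (y ^ E + 2) by pl).ge 1
  refine ⟨x - 1, by linarith, E, i, fun b => ⟨(E + 1) * C + E + b, K,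
    fun N m A α y V c cs rg de ok => ?_⟩⟩
  have m2 := y.m2
  have mX : m ≤ Xs s m c := le_Xs c
  have e := hE m m2
  have st : V.T.Stg V.T.lev s := cs.ok.1.cl.stg cs.ok.2.1
  set t := tot (2 * s + 1) c
  have ca : Fintype.card V.T.C ≤ t :=
    (Rf.card_eq cs.ok).trans_le ((cs.R 1 (mem_Icc.2 ⟨le_rfl, hs⟩)).trans (le_tot (by omega)))
  have t2 : t ≤ 2 ^ m := le_trans (by omega) ((Nat.le_self_pow (by omega) _).trans ok.two)
  have pw : ∀ k ≤ (E + 1) * C + E + b, m ^ k ≤ Xs s m c ^ ((E + 1) * C + E + b) := fun k hk =>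
    (Un.pw_le m2 hk).trans (Nat.pow_le_pow_left mX _)
  have lb : (1 : ℝ) / 2 ^ m ^ E ≤ (1 / 2 ^ (m + u) / (s + 2)!) ^ (2 * s) := by
    refine (Un.half_le (show (m + u + (s + 2)!) * (2 * s) ≤ _ by omega)).trans ?_
    rw [pow_mul, ← _root_.one_div_pow, pow_add _ (m + u), ← div_div]
    gcongr
    exact_mod_cast Nat.lt_two_pow_self.le
  obtain ⟨τ1, S, χ, Ψ, z, sz, ad, vm, ex⟩ := h C m (2 * (j * m)) (m ^ E) V A (1 / 2 ^ (m + u)) α
    (1 / 2 ^ m ^ E) (1 / 2 ^ m ^ E) ma pt (even_two_mul _) (by omega) cs.ok y.free y.lo (by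
      have b : (1 : ℝ) / 2 ^ i ≤ η := by rw [one_div]; exact inv_le_of_inv_le₀ η0 hi.le
      have d := mul_le_mul b y.lo (by positivity) η0.le
      rw [pow_add, ← one_div_mul_one_div] at de
      linarith) (by positivity) (by simpa using Un.half_le (Nat.zero_le _))
    (lam_ok η0 η1 (ca.trans t2) (by positivity) hu) (by positivity) (Un.half_le (by omega))
    (by omega) (rg_of rg st (by omega) ((Un.pw_one m2 E).trans (Nat.pow_le_pow_left mX _))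
      (by omega) (Un.half_le (pw E (by omega))) (Un.half_le (pw E (by omega)))) lb (by
      have N0 : (0 : ℝ) < N := by exact_mod_cast (by linarith [y.N2])
      have g : N * V.g1 ≤ 2 ^ t :=
        cs.g.trans (pow_le_pow_right₀ one_le_two (le_tot (by omega)))
      have p : ∏ l ∈ Icc 1 s, V.T.ct l ≤ (2 ^ t) ^ s := by
        refine (prod_le_prod (fun _ _ => th_nonneg _ _) fun l k => (cs.ct l k).trans
          (pow_le_pow_right₀ one_le_two (le_tot (n := 2 * s + 1) (by omega)))).trans_eq ?_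
        rw [prod_const, Nat.card_Icc, Nat.add_sub_cancel]
      have p0 : 0 ≤ ∏ l ∈ Icc 1 s, V.T.ct l := prod_nonneg fun _ _ => th_nonneg _ _
      have k := ok.lt m2 y.N2 (le_trans (show 2 + m * (s + 2) + t +
        ((m + u) * (s * Fintype.card V.T.C) + t * s) * (m ^ E + 2) ≤ _ by gcongr <;> omega)
        (hK (m + t) (by omega)))
      refine lt_of_mul_lt_mul_left (lt_of_le_of_lt ?_ (k.trans_eq (mul_one _).symm)) N0.le
      rw [one_div, inv_inv]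
      calc _ = 4 * 2 ^ (m * (s + 2)) * (N * V.g1) * (((2 : ℝ) ^ (m + u)) ^ (s * Fintype.card V.T.C) *
            ∏ l ∈ Icc 1 s, V.T.ct l) ^ (m ^ E + 2) := by ring
        _ ≤ 4 * 2 ^ (m * (s + 2)) * 2 ^ t * (((2 : ℝ) ^ (m + u)) ^ (s * Fintype.card V.T.C) *
            (2 ^ t) ^ s) ^ (m ^ E + 2) := by gcongr
        _ = _ := by
          rw [show (4 : ℝ) = 2 ^ 2 by norm_num]
          simp only [← pow_mul, ← pow_add])
  have f0 : (((s + 2)! : ℕ) : ℤ) ≠ 0 := by exact_mod_cast (factorial_pos _).ne'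
  refine ⟨V.T, ((s + 2)! : ℤ) • V.π, _, s, fun _ => 2 * (j * m) + 2, _, _, S, χ,
    vis s (fun _ => 2 * (j * m) + 2) 1, cv, Ψ, z,
    ⟨⟨cs.ok.1, cs.ok.2.1, fun F k => cs.ok.2.2 F (right_ne_zero_of_mul k)⟩, cs.R, cs.ct,
      (congrArg (fun z => (N : ℝ) * z) (V.T.g1_smul f0 _)).trans_le cs.g⟩, st, sE,
    Un.rg_mono st rg (pw b (by omega)), fun _ => ⟨Nat.le_add_left _ _, by beta_reduce; omega⟩,
    sz.mono le_rfl lb, ad, Un.vis_vis (fun _ => Nat.succ_pos _) hs ?_, vm, le_trans (by simp) ex⟩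
  rw [card_grid, prod_const, Finset.card_univ, Fintype.card_fin]; omega

/-- **the first link** -/
theorem lst_of {s : ℕ} (hs : 1 ≤ s) (hr : Jb.REGS) (hu : Un.UNP) (hl : LP s) :
    (sd s).Lst (s + 2) s := by
  obtain ⟨ε, h, E, j, hl⟩ := hl
  obtain ⟨ε', h', hu⟩ := hu s s E ε hs h
  refine ⟨ε', h', fun b => ?_⟩
  obtain ⟨b, hu⟩ := hu b
  obtain ⟨b', K, hl⟩ := hl b
  obtain ⟨K', hr⟩ := hr s 1 b' j
  obtain ⟨F, hF⟩ := ok_tri (2 * s + 1) (K + K' + 1)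
  refine ⟨K' + F, fun N m A α y v p ok => ?_⟩
  have m2 := y.m2
  obtain ⟨w, ⟨cs, -, rg, de⟩, t⟩ := hr N m _ (zs A) α m2 v ⟨p.1, p.2.ge⟩
    (ok.mono (by omega) (by omega))
  have o := hF m _ _ _ m2 (t.mono (by omega) (by omega) le_rfl) (ok.mono (by omega) (by omega))
  obtain ⟨g, e, k⟩ := hu N m A α w.2 m2 y.lo (o.Xs (by omega))
    (hl N m A α y w.1 w.2 cs rg de (o.mono (by omega) (by omega)))
  have t' : Tri (2 * s + 1) K' m v.2 g.c := by rw [e]; exact t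
  exact ⟨g, k, t'.mono (by omega) (by omega) le_rfl⟩

end Crest.Agent.N49.Top
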