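import Crest.Agent.N49.Top.Fin
import Crest.Agent.N49.Top.Lst
import Crest.Agent.N49.Tw.Ch1
import Crest.Agent.N49.Tw.Cfin
import Crest.Agent.N49.Tw.Csem
import Crest.Agent.N49.Tw.Cbr
import Crest.Agent.N49.Tw.Marg
import Crest.Agent.N49.Tw.Mh3
import Crest.Agent.N49.Tw.Ptm
import Crest.Agent.N49.Tw.Mast1
import Crest.Agent.N49.Jb.All
import Crest.Agent.N49.Rf.Sl1
import Crest.Agent.N49.En.L1
import Crest.Agent.N49.En.Mn2

/-!
# Row 49 (helper20): the Master lemma without hypotheses, the row modulo the cores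
-/

set_option autoImplicit false

namespace Crest.Agent.N49.Top

open Tw

theorem chr (M : ℕ) : ∃ c, CHAR M c := lfin ch1 lbr lsem M _ (Mh.marhs (margs M))

theorem mst (M : ℕ) : ∃ C, MAST M C ∧ MARGT M C ∧ MARHT M C ∧ PTMT M C :=
  mast_of (chr M) ⟨_, margs M⟩ ⟨_, Mh.marhs (margs M)⟩ ⟨_, ptms (margs M)⟩

theorem ma : Un.MA := fun M => (mst M).imp fun _ h => ⟨h.1, h.2.2.1⟩

theorem lst (s : ℕ) (hs : 1 ≤ s) : (sd s).Lst (s + 2) s :=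
  lst_of hs (Jb.regS' Rf.sl1 chr) (Un.unp ma)
    (lp_of hs (En.l1 En.mean2) ((mst s).imp fun _ h => ⟨h.1, h.2.2.2⟩))

/-- **the row modulo the cores** -/
theorem row_core (hc : ∀ s d, 1 ≤ s → d < s → Un.CORE s d) (k : ℕ) (hk : 3 ≤ k) :
    ∃ C c ε : ℝ, 0 < C ∧ 0 < c ∧ 0 < ε ∧ ∀ N : ℕ, 2 ≤ N → ∀ A : Finset ℕ,
      A ⊆ Finset.Icc 1 N → (∀ a d : ℕ, 0 < d → ∃ i, i < k ∧ a + i * d ∉ A) →
        (A.card : ℝ) ≤ C * N * Real.exp (-(c * Real.log N ^ ε)) := fin_of ma lst hc k hk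

end Crest.Agent.N49.Top
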