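import Crest.Agent.N49.Top.Zst
import Crest.Agent.N49.Un.Dst
import Crest.Agent.N49.En.End0

/-!
# Row 49 (helper20): the row from the first link, the cores and the Master lemma
-/

set_option autoImplicit false

namespace Crest.Agent.N49.Top

/-- **the row modulo the Master lemma, the first link and the cores** -/
theorem fin_of (ma : Un.MA) (hl : ∀ s, 1 ≤ s → (sd s).Lst (s + 2) s)
    (hc : ∀ s d, 1 ≤ s → d < s → Un.CORE s d) (k : ℕ) (hk : 3 ≤ k) :
    ∃ C c ε : ℝ, 0 < C ∧ 0 < c ∧ 0 < ε ∧ ∀ N : ℕ, 2 ≤ N → ∀ A : Finset ℕ,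
      A ⊆ Finset.Icc 1 N → (∀ a d : ℕ, 0 < d → ∃ i, i < k ∧ a + i * d ∉ A) →
        (A.card : ℝ) ≤ C * N * Real.exp (-(c * Real.log N ^ ε)) := by
  obtain ⟨s, rfl⟩ : ∃ s, k = s + 2 := ⟨k - 2, by omega⟩
  have hs : 1 ≤ s := by omega
  exact row_sd s hs (hl s hs) (fun d h => Un.dst_of _ hs ma (hc s d hs h))
    (zst_of _ hs En.end0 fun M => (ma M).imp fun _ h => h.1)

end Crest.Agent.N49.Top
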