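import Crest.Agent.N49.Top.Tri

/-!
# Row 49 (helper27): the step from its links (start, (L), `d + 1 → d`, end)
-/

set_option autoImplicit false
open Finset

namespace Crest.Agent.N49.Top

universe u

/-- the standing hypotheses -/
structure Hy (k N m : ℕ) (A : Finset ℕ) (α : ℝ) : Prop where
  N2 : 2 ≤ N
  m2 : 2 ≤ m
  sub : A ⊆ Icc 1 N
  free : Free k A
  lo : 1 / 2 ^ m ≤ α
  hi : α ≤ 1

/-- feasibility: the costs are small against `log N` and against `2 ^ m` (so "fine" means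
polynomial in `m`) -/
noncomputable def Lm (N m : ℕ) : ℝ := min (Real.log N) (2 ^ m)

theorem Ok.log {n K m N : ℕ} {c : ℕ → ℕ} (h : Ok n K m (Lm N m) c) :
    ((m + tot n c : ℕ) : ℝ) ^ K ≤ Real.log N := le_trans h (min_le_left _ _)

theorem Ok.two {n K m N : ℕ} {c : ℕ → ℕ} (h : Ok n K m (Lm N m) c) : (m + tot n c) ^ K ≤ 2 ^ m := by
  exact_mod_cast le_trans h (min_le_right _ _)

/-- then `bs` is at most `2 m` plus the earlier costs -/
theorem Ok.lg {n K m N : ℕ} {c : ℕ → ℕ} (h : Ok n K m (Lm N m) c) (hK : 1 ≤ K) :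
    Nat.log 2 (tot n c) ≤ m :=
  (Nat.log_mono_right (le_trans (by omega) ((Nat.le_self_pow (by omega) _).trans h.two))).trans_eq
    (Nat.log_pow one_lt_two m)

theorem exists_big (n E : ℕ) : ∃ K, ∀ (N m : ℕ) (c : ℕ → ℕ), 2 ≤ m → Ok n K m (Real.log N) c →
    ∃ m', m ≤ m' ∧ Ok n E m' (Lm N m') c ∧ ∀ c', Tri n E m' c c' → Tri n K m c c' := by
  refine ⟨(2 * E + 3 + 1) * E, fun N m c hm h => ?_⟩
  set x := m + Nat.log 2 (tot n c) with hx
  have x1 : x ≤ x ^ (2 * E + 3) := Nat.le_self_pow (by omega) _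
  have key : ∀ y z, x ≤ y → z ≤ y → x ^ (2 * E + 3) + z ≤ y ^ (2 * E + 3 + 1) := fun y z a b => by
    have d := Nat.pow_le_pow_left a (2 * E + 3)
    have e : y ≤ y ^ (2 * E + 3) := Nat.le_self_pow (by omega) _
    have := Nat.mul_le_mul_left (y ^ (2 * E + 3)) (show 2 ≤ y by omega)
    rw [pow_succ y (2 * E + 3)]; omega
  refine ⟨x ^ (2 * E + 3), by omega, le_min (le_trans ?_ h) ?_, fun c' t i hi =>
    ⟨(t i hi).1, (t i hi).2.trans (Nat.add_le_add_left ?_ _)⟩⟩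
  · rw [pow_mul]
    exact_mod_cast Nat.pow_le_pow_left (key (m + tot n c) _
      (Nat.add_le_add_left (Nat.log_le_self 2 _) m) (by omega)) E
  · have a : x ^ (2 * E + 3) ≤ 2 ^ (x * (2 * E + 3)) := by
      rw [pow_mul]; exact Nat.pow_le_pow_left Nat.lt_two_pow_self.le _
    have b : tot n c ≤ 2 ^ (x * (2 * E + 3)) := (Nat.lt_pow_succ_log_self one_lt_two _).le.trans
      (Nat.pow_le_pow_right two_pos (by nlinarith))
    have d : x ^ (2 * E + 3) + tot n c ≤ 2 ^ (x * (2 * E + 3) + 1) := by rw [pow_succ 2]; omega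
    have e : (x * (2 * E + 3) + 1) * E ≤ x ^ (2 * E + 3) := by
      have f : E < 2 ^ E := Nat.lt_two_pow_self
      have g : 2 ^ (2 * E + 2) ≤ x ^ (2 * E + 2) := Nat.pow_le_pow_left (by omega) _
      have i : (2 * E + 4) * E ≤ 2 ^ (2 * E + 2) := by
        rw [show 2 ^ (2 * E + 2) = (4 * 2 ^ E) * 2 ^ E by ring]
        exact Nat.mul_le_mul (by omega) f.le
      rw [pow_succ' x (2 * E + 2)]
      refine le_trans ?_ (Nat.mul_le_mul_left x (i.trans g))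
      rw [← mul_assoc]
      exact Nat.mul_le_mul_right E (by nlinarith)
    have := ((Nat.pow_le_pow_left d E).trans_eq (pow_mul _ _ _).symm).trans
      (Nat.pow_le_pow_right two_pos e)
    exact_mod_cast this
  · rw [pow_mul]
    refine Nat.pow_le_pow_left (le_trans ?_ (key (bs n m c c' i) _ ?_ le_rfl)) E <;>
      unfold bs <;> omega

/-- the data of the chain: containers `V`, grid states `G d`, costs, densities, validity;
`P d N m A α ε b g`: the state `g` has excess `ε` and is regular for the budget exponent `b` -/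
structure Dat where
  n : ℕ
  V : Type u
  G : ℕ → Type u
  cV : V → ℕ → ℕ
  cG : ∀ d, G d → ℕ → ℕ
  den : Finset ℕ → V → ℝ
  ok : ℕ → V → Prop
  P : ∀ d, ℕ → ℕ → Finset ℕ → ℝ → ℝ → ℕ → G d → Prop

variable (D : Dat.{u}) (k : ℕ)

/-- the first container -/
def Dat.Start : Prop := ∃ K j, ∀ (N m : ℕ) (A : Finset ℕ), 2 ≤ N → 2 ≤ m → A ⊆ Icc 1 N →
  N * 2 ^ j ≤ 2 ^ m * #A → ∃ v, D.ok N v ∧ 1 / 2 ^ m ≤ D.den A v ∧ ∀ i < D.n, D.cV v i ≤ m ^ K

/-- from a container to a grid state with excess `ε` -/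
def Dat.Lst (s : ℕ) : Prop := ∃ ε : ℝ, 0 < ε ∧ ∀ b, ∃ K, ∀ N m A α, Hy k N m A α →
  Arr D.n K m (Lm N m) D.cV (D.cG s) (fun v => D.ok N v ∧ D.den A v = α)
    fun _ g => D.P s N m A α ε b g

/-- one block less -/
def Dat.Dst (d : ℕ) : Prop := ∀ ε : ℝ, 0 < ε → ∃ ε' : ℝ, 0 < ε' ∧ ∀ b', ∃ b K, ∀ N m A α,
  Hy k N m A α → Arr D.n K m (Lm N m) (D.cG (d + 1)) (D.cG d) (D.P (d + 1) N m A α ε b)
    fun _ g => D.P d N m A α ε' b' g

/-- back to a container -/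
def Dat.Zst : Prop := ∀ ε : ℝ, 0 < ε → ∃ c : ℝ, 0 < c ∧ ∃ b K, ∀ N m A α, Hy k N m A α →
  Arr D.n K m (Lm N m) (D.cG 0) D.cV (D.P 0 N m A α ε b)
    fun _ v => D.ok N v ∧ (1 + c) * α ≤ D.den A v

variable {D k}

theorem Dat.down (hz : D.Zst k) (s : ℕ) (hd : ∀ d < s, D.Dst k d) (ε : ℝ) (h : 0 < ε) :
    ∃ c : ℝ, 0 < c ∧ ∃ b K, ∀ N m A α, Hy k N m A α →
      Arr D.n K m (Lm N m) (D.cG s) D.cV (D.P s N m A α ε b)
        fun _ v => D.ok N v ∧ (1 + c) * α ≤ D.den A v := by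
  induction s generalizing ε with
  | zero => exact hz ε h
  | succ s ih =>
    obtain ⟨ε', h', a⟩ := hd s (by omega) ε h
    obtain ⟨c, hc, B', K', b⟩ := ih (fun d q => hd d (by omega)) ε' h'
    obtain ⟨B, K, a⟩ := a B'
    obtain ⟨E, e⟩ := arr_comp.{u, u, u} D.n (K + K')
    refine ⟨c, hc, B, E, fun N m A α y => ?_⟩
    have := y.m2
    exact (e m _ _ _ _ _ _ _ _ (D.P s N m A α ε' B') _ _ y.m2 (fun _ _ _ a => a)
      ((a N m A α y).mono (by omega) (by omega) (fun _ a => a) fun _ _ _ a => a)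
      ((b N m A α y).mono (by omega) (by omega) (fun _ a => a) fun _ _ _ a => a)).mono (by omega)
        le_rfl (fun _ a => a) fun _ _ _ ⟨_, _, a⟩ => a

/-- **the glue** -/
theorem Dat.step (s : ℕ) (h1 : ∀ N A v, D.ok N v → D.den A v ≤ 1) (h0 : D.Start) (hl : D.Lst k s)
    (hd : ∀ d < s, D.Dst k d) (hz : D.Zst k) : Step'.{u} k := by
  obtain ⟨K₀, j, h0⟩ := h0
  obtain ⟨ε, h, a⟩ := hl
  obtain ⟨c, hc, B, K', b⟩ := Dat.down hz s hd ε h
  obtain ⟨K, a⟩ := a B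
  obtain ⟨E, e⟩ := arr_comp.{u, u, u} D.n (K + K')
  obtain ⟨F, hF⟩ := exists_big D.n E
  refine ⟨D.n, K₀ + F, j, c, hc, fun N m A hN hm hA hf q _ => ⟨{v // D.ok N v},
    fun v => D.den A v.1, fun v => D.cV v.1, fun v => h1 N A _ v.2, ?_, fun v p ok => ?_⟩⟩
  · obtain ⟨v, a, b, d⟩ := h0 N m A hN hm hA q
    exact ⟨⟨v, a⟩, b, fun i hi => (d i hi).trans (Nat.pow_le_pow_right (by omega) (by omega))⟩
  · obtain ⟨m', mm, ok', t⟩ := hF N m _ hm (ok.mono (by omega) (by omega))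
    have y : Hy k N m' A (D.den A v.1) := ⟨hN, by omega, hA, hf, le_trans (one_div_le_one_div_of_le
      (by positivity) (pow_le_pow_right₀ one_le_two mm)) p, h1 N A _ v.2⟩
    obtain ⟨w, ⟨_, _, d, f⟩, g⟩ := e m' _ _ _ _ _ _ _ _ (D.P s N m' A _ ε B) _ _ y.m2
      (fun _ _ _ a => a) ((a N m' A _ y).mono (by omega) (by omega) (fun _ a => a) fun _ _ _ a => a)
      ((b N m' A _ y).mono (by omega) (by omega) (fun _ a => a) fun _ _ _ a => a) v.1 ⟨v.2, rfl⟩ ok'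
    exact ⟨⟨w, d⟩, f, (t _ g).mono (by omega) (by omega) le_rfl⟩

end Crest.Agent.N49.Top
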