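import Mathlib

/-!
# Row 49 (helper27): the iteration with triangular costs gives the quasi-polynomial bound
-/

set_option autoImplicit false
open Finset

namespace Crest.Agent.N49.Top

/-- no progression of length `k` -/
def Free (k : ℕ) (A : Finset ℕ) : Prop := ∀ a d : ℕ, 0 < d → ∃ i, i < k ∧ a + i * d ∉ A

/-- containers `V` with densities and `n` costs; a step adds to the cost `i` a polynomial in `m`,
in the logarithm of the old costs and in the new costs `j < i` -/
structure Sch (n K m : ℕ) (c L : ℝ) (V : Type) (den : V → ℝ) (cost : V → ℕ → ℕ) : Prop where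
  le : ∀ v, den v ≤ 1
  start : ∃ v, 1 / 2 ^ m ≤ den v ∧ ∀ i < n, cost v i ≤ m ^ K
  step : ∀ v, 1 / 2 ^ m ≤ den v → ((m + ∑ i ∈ range n, cost v i : ℕ) : ℝ) ^ K ≤ L →
    ∃ v', (1 + c) * den v ≤ den v' ∧ ∀ i < n, cost v' i ≤ cost v i +
      (m + Nat.log 2 (∑ j ∈ range n, cost v j) + ∑ j ∈ range i, cost v' j) ^ K

/-- **the step statement** -/
def Step (k : ℕ) : Prop :=
  ∃ (n K : ℕ) (c : ℝ), 0 < c ∧ ∀ (N m : ℕ) (A : Finset ℕ), 2 ≤ N → 2 ≤ m → A ⊆ Icc 1 N → Free k A →
    N ≤ 2 ^ m * #A → (m : ℝ) ^ K ≤ Real.log N →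
      ∃ (V : Type) (den : V → ℝ) (cost : V → ℕ → ℕ), Sch n K m c (Real.log N) V den cost

/-- the bounds -/
def S (K T M : ℕ) : ℕ → ℕ
  | 0 => M
  | i + 1 => S K T M i + (T * M + 1) * S K T M i ^ K

theorem S_eq (K T M i : ℕ) : S K T M i = M + ∑ j ∈ range i, (T * M + 1) * S K T M j ^ K := by
  induction i with
  | zero => rfl
  | succ i ih => rw [S, sum_range_succ, ← add_assoc, ← ih]

theorem S_le (K T i : ℕ) : ∃ E, ∀ M, 2 ≤ M → S K T M i ≤ M ^ E := by
  induction i with
  | zero => exact ⟨1, fun M _ => (pow_one M).ge⟩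
  | succ i ih =>
    obtain ⟨E, h⟩ := ih
    refine ⟨E + (T + 1 + E * K) + 1, fun M k => ?_⟩
    have a : T + 1 ≤ M ^ T := Nat.lt_two_pow_self.trans_le (Nat.pow_le_pow_left k T)
    have b : T * M + 1 ≤ M ^ (T + 1) := by
      have := Nat.mul_le_mul_right M a
      rw [pow_succ]; rw [add_mul] at this; omega
    have c := Nat.mul_le_mul b (Nat.pow_le_pow_left (h M k) K)
    rw [← pow_mul, ← pow_add] at c
    have d : M ^ E ≤ M ^ (E + (T + 1 + E * K)) := Nat.pow_le_pow_right (by omega) (by omega)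
    have e : M ^ (T + 1 + E * K) ≤ M ^ (E + (T + 1 + E * K)) :=
      Nat.pow_le_pow_right (by omega) (by omega)
    have := h M k
    have := Nat.mul_le_mul_left (M ^ (E + (T + 1 + E * K))) k
    rw [S, pow_succ]; omega

theorem exists_l (E : ℕ) : ∃ l, ∀ x, l ≤ x → (2 * x) ^ E ≤ 2 ^ x := by
  have := (isLittleO_pow_const_const_pow_of_one_lt (R := ℝ) E one_lt_two).bound
    (show (0 : ℝ) < 1 / 2 ^ E by positivity)
  obtain ⟨l, h⟩ := Filter.eventually_atTop.1 this
  refine ⟨l, fun x k => ?_⟩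
  have := h x k
  rw [Real.norm_of_nonneg (by positivity), Real.norm_of_nonneg (by positivity),
    one_div, ← div_eq_inv_mul, le_div_iff₀ (by positivity), ← mul_pow, mul_comm] at this
  exact_mod_cast this

theorem Sch.bound (n K : ℕ) {c : ℝ} (hc : 0 < c) : ∃ E, ∀ (m : ℕ) (L : ℝ) (V : Type) (den : V → ℝ)
    (cost : V → ℕ → ℕ), 2 ≤ m → Sch n K m c L V den cost → L < (m : ℝ) ^ E := by
  obtain ⟨T, hT⟩ := pow_unbounded_of_one_lt 2 (show 1 < 1 + c by linarith)
  obtain ⟨E, hE⟩ := S_le K T n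
  obtain ⟨l, hl⟩ := exists_l E
  refine ⟨(l + 2) * E * K, fun m L V den cost hm h => not_le.1 fun hL => ?_⟩
  set M := m + (m + l) with hM
  have M2 : 2 ≤ M := by omega
  have Mm : M ≤ m ^ (l + 2) := by
    have a : l + 2 ≤ m ^ (l + 1) := Nat.lt_two_pow_self.trans_le (Nat.pow_le_pow_left hm _)
    have := Nat.mul_le_mul_right m a
    have := Nat.mul_le_mul_left l (show 1 ≤ m by omega)
    rw [pow_succ]; rw [add_mul] at *; omega
  have sm : ∀ (i t : ℕ) (f : ℕ → ℕ), t ≤ T * m → (∀ j < i, f j ≤ (t + 1) * S K T M j ^ K) →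
      M + ∑ j ∈ range i, f j ≤ S K T M i := fun i t f a b => by
    rw [S_eq]
    refine Nat.add_le_add_left (sum_le_sum fun j k => (b j (mem_range.1 k)).trans
      (Nat.mul_le_mul_right _ (Nat.succ_le_succ (a.trans (Nat.mul_le_mul_left _ (by omega)))))) _
  have key : ∀ t ≤ T * m, ∃ v, (1 + c) ^ t / 2 ^ m ≤ den v ∧
      ∀ i < n, cost v i ≤ (t + 1) * S K T M i ^ K := fun t => by
    induction t with
    | zero =>
      obtain ⟨v, a, b⟩ := h.start
      refine fun _ => ⟨v, by simpa using a, fun i k => (b i k).trans ?_⟩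
      rw [zero_add, one_mul, S_eq]
      exact Nat.pow_le_pow_left (by omega) _
    | succ t ih =>
      intro k
      obtain ⟨v, a, b⟩ := ih (by omega)
      have s := (sm n t _ (by omega) b).trans (hE M M2)
      obtain ⟨v', a', b'⟩ := h.step v (le_trans (div_le_div_of_nonneg_right
        (one_le_pow₀ (by linarith)) (by positivity)) a) (le_trans (by
          have : m + ∑ i ∈ range n, cost v i ≤ (m ^ (l + 2)) ^ E :=
            le_trans (by omega) (s.trans (Nat.pow_le_pow_left Mm E))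
          rw [pow_mul, pow_mul]
          exact_mod_cast Nat.pow_le_pow_left this K) hL)
      refine ⟨v', le_trans ?_ a', fun i => ?_⟩
      · rw [pow_succ', mul_div_assoc]
        exact mul_le_mul_of_nonneg_left a (by linarith)
      have lg : Nat.log 2 (∑ j ∈ range n, cost v j) ≤ m + l := by
        have := (Nat.pow_le_pow_left (show M ≤ 2 * (m + l) by omega) E).trans (hl _ (by omega))
        exact (Nat.log_mono_right (by omega)).trans_eq (Nat.log_pow one_lt_two (m + l))
      induction i using Nat.strong_induction_on with | h i ih => ?_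
      intro hi
      have := sm i (t + 1) (cost v') k fun j hj => ih j hj (hj.trans hi)
      have := Nat.pow_le_pow_left (show m + Nat.log 2 (∑ j ∈ range n, cost v j) +
        ∑ j ∈ range i, cost v' j ≤ S K T M i by omega) K
      have := b' i hi
      have := b i hi
      rw [add_mul (t + 1)]; omega
  obtain ⟨v, a, -⟩ := key _ le_rfl
  have := a.trans (h.le v)
  rw [div_le_one (by positivity), pow_mul] at this
  exact absurd this (not_le.2 (pow_lt_pow_left₀ hT two_pos.le (by omega)))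

/-- **the quasi-polynomial bound from the step** -/
theorem of_step {k : ℕ} (h : Step k) :
    ∃ C c ε : ℝ, 0 < C ∧ 0 < c ∧ 0 < ε ∧ ∀ N : ℕ, 2 ≤ N → ∀ A : Finset ℕ,
      A ⊆ Finset.Icc 1 N → (∀ a d : ℕ, 0 < d → ∃ i, i < k ∧ a + i * d ∉ A) →
        (A.card : ℝ) ≤ C * N * Real.exp (-(c * Real.log N ^ ε)) := by
  obtain ⟨n, K, c, hc, h⟩ := h
  obtain ⟨E, hE⟩ := Sch.bound n K hc
  refine ⟨4, Real.log 2, ((E + K + 1 : ℕ) : ℝ)⁻¹, by norm_num, Real.log_pos one_lt_two,
    by positivity, fun N hN A hA hF => ?_⟩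
  rcases A.eq_empty_or_nonempty with rfl | ne
  · simp only [card_empty, Nat.cast_zero]; positivity
  have ex : ∃ m, N ≤ 2 ^ (m + 2) * #A := ⟨N, le_trans (Nat.lt_two_pow_self.le.trans
    (Nat.pow_le_pow_right two_pos (by omega))) (Nat.le_mul_of_pos_right _ ne.card_pos)⟩
  set m := Nat.find ex
  have h1 : N ≤ 2 ^ (m + 2) * #A := Nat.find_spec ex
  have h2 : 2 ^ (m + 2) * #A ≤ 4 * N := by
    rcases e : m with _ | j
    · have := card_le_card hA; rw [Nat.card_Icc] at this; omega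
    · have := Nat.find_min ex (show j < m by omega)
      rw [show j + 1 + 2 = j + 2 + 1 from rfl, pow_succ', mul_assoc]; omega
  have m1 : (1 : ℝ) ≤ (m + 2 : ℕ) := by exact_mod_cast (by omega)
  have h3 : Real.log N ≤ ((m + 2 : ℕ) : ℝ) ^ (E + K + 1) := by
    by_cases q : ((m + 2 : ℕ) : ℝ) ^ K ≤ Real.log N
    · obtain ⟨V, den, cost, s⟩ := h N (m + 2) A hN (by omega) hA hF h1 q
      exact (hE _ _ V den cost (by omega) s).le.trans (pow_le_pow_right₀ m1 (by omega))
    · exact (not_le.1 q).le.trans (pow_le_pow_right₀ m1 (by omega))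
  have h4 : Real.log N ^ ((E + K + 1 : ℕ) : ℝ)⁻¹ ≤ (m + 2 : ℕ) :=
    (Real.rpow_le_rpow (Real.log_natCast_nonneg N) h3 (by positivity)).trans_eq
      (Real.pow_rpow_inv_natCast (by positivity) (by omega))
  have h5 : Real.exp (Real.log 2 * Real.log N ^ ((E + K + 1 : ℕ) : ℝ)⁻¹) ≤ 2 ^ (m + 2) := by
    rw [← Real.rpow_natCast, Real.rpow_def_of_pos two_pos]
    exact Real.exp_le_exp.2 (mul_le_mul_of_nonneg_left h4 (Real.log_pos one_lt_two).le)
  rw [Real.exp_neg, ← div_eq_mul_inv, le_div_iff₀ (Real.exp_pos _)]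
  refine (mul_le_mul_of_nonneg_left h5 (by positivity)).trans ?_
  rw [mul_comm]; exact_mod_cast h2

end Crest.Agent.N49.Top
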